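import Vale.Agent.P040.Upper

namespace Vale.Agent.Results.P040.Zarankiewicz

open Vale.Agent.P040

theorem result (m n : ℕ) :
    crossingNumber (completeBipartiteGraph (Fin m) (Fin n)) = zd m * zd n ∧
    (∃ D : Drawing (completeBipartiteGraph (Fin m) (Fin n)),
      D.Proper ∧ D.crossings = zd m * zd n) ∧
    ∀ D : Drawing (completeBipartiteGraph (Fin m) (Fin n)), zd m * zd n ≤ D.crossings := by
  obtain ⟨D, h1, h2⟩ := upper m n
  have h3 : D.crossings = zd m * zd n := le_antisymm h2 (lower D)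
  refine ⟨le_antisymm (Nat.sInf_le ⟨D, h1, h3⟩) ?_, ⟨D, h1, h3⟩, lower⟩
  refine le_csInf ⟨_, D, h1, h3⟩ ?_
  rintro k ⟨D', -, rfl⟩
  exact lower D'

end Vale.Agent.Results.P040.Zarankiewicz
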